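import Mathlib

set_option autoImplicit false
open Finset

namespace Crest.Agent.GL

variable {n : ℕ}

/-- sign of a bit -/
def sg (b : Bool) : ℝ := if b then 1 else -1

lemma sg_mul_self (b : Bool) : sg b * sg b = 1 := by cases b <;> simp [sg]

/-- character -/
def chi (S : Finset (Fin n)) (x : Fin n → Bool) : ℝ := ∏ j ∈ S, sg (x j)

lemma chi_eq (S : Finset (Fin n)) (x : Fin n → Bool) :
    chi S x = ∏ j, (if j ∈ S then sg (x j) else 1) := by
  unfold chi
  rw [Finset.prod_ite_mem, Finset.univ_inter]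

lemma chi_mul (S T : Finset (Fin n)) : chi S * chi T = chi (symmDiff S T) := by
  funext x
  rw [Pi.mul_apply, chi_eq, chi_eq, chi_eq, ← Finset.prod_mul_distrib]
  refine Finset.prod_congr rfl fun j _ => ?_
  by_cases h1 : j ∈ S <;> by_cases h2 : j ∈ T <;>
    simp [h1, h2, Finset.mem_symmDiff, sg_mul_self]

lemma chi_empty : chi (∅ : Finset (Fin n)) = 1 := by
  funext x; simp [chi]

lemma chi_mul_self (S : Finset (Fin n)) (x : Fin n → Bool) : chi S x * chi S x = 1 := by
  have h := congrFun (chi_mul S S) x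
  rw [Pi.mul_apply, symmDiff_self, Finset.bot_eq_empty, chi_empty] at h
  simpa using h

lemma sum_chi (S : Finset (Fin n)) (hS : S.Nonempty) : ∑ x : Fin n → Bool, chi S x = 0 := by
  obtain ⟨i, hi⟩ := hS
  have h : ∑ x : Fin n → Bool, chi S x
      = ∏ j : Fin n, ∑ b : Bool, (if j ∈ S then sg b else 1) := by
    rw [Finset.prod_univ_sum]
    simp only [Fintype.piFinset_univ]
    exact Finset.sum_congr rfl fun x _ => chi_eq S x
  rw [h]
  refine Finset.prod_eq_zero (Finset.mem_univ i) ?_
  simp [hi, sg]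

lemma sum_chi_mul (S T : Finset (Fin n)) :
    ∑ x : Fin n → Bool, chi S x * chi T x = if S = T then (2:ℝ) ^ n else 0 := by
  have h : ∀ x, chi S x * chi T x = chi (symmDiff S T) x := fun x => congrFun (chi_mul S T) x
  simp only [h]
  split_ifs with hST
  · subst hST
    rw [symmDiff_self, Finset.bot_eq_empty, chi_empty]
    simp
  · apply sum_chi
    rw [Finset.nonempty_iff_ne_empty, ← Finset.bot_eq_empty, Ne, symmDiff_eq_bot]
    exact hST

/-- functions of degree at most `D` -/
def P (n D : ℕ) : Submodule ℝ ((Fin n → Bool) → ℝ) :=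
  Submodule.span ℝ {h | ∃ S : Finset (Fin n), S.card ≤ D ∧ h = chi S}

lemma chi_mem_P {S : Finset (Fin n)} {D : ℕ} (h : S.card ≤ D) : chi S ∈ P n D :=
  Submodule.subset_span ⟨S, h, rfl⟩

lemma card_symmDiff_le (S T : Finset (Fin n)) : (symmDiff S T).card ≤ S.card + T.card := by
  have h : symmDiff S T ⊆ S ∪ T := by
    intro j hj
    rw [Finset.mem_symmDiff] at hj
    rw [Finset.mem_union]
    tauto
  exact (Finset.card_le_card h).trans (Finset.card_union_le S T)

lemma P_mul {a b : ℕ} {f g : (Fin n → Bool) → ℝ} (hf : f ∈ P n a) (hg : g ∈ P n b) :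
    f * g ∈ P n (a + b) := by
  have h1 : f * g ∈ P n a * P n b := Submodule.mul_mem_mul hf hg
  have h2 : P n a * P n b ≤ P n (a + b) := by
    unfold P
    rw [Submodule.span_mul_span]
    refine Submodule.span_mono ?_
    rintro _ ⟨_, ⟨S, hS, rfl⟩, _, ⟨T, hT, rfl⟩, rfl⟩
    exact ⟨symmDiff S T, (card_symmDiff_le S T).trans (by omega), chi_mul S T⟩
  exact h2 h1

lemma P_mono {a b : ℕ} (h : a ≤ b) : P n a ≤ P n b := by
  refine Submodule.span_mono ?_
  rintro _ ⟨S, hS, rfl⟩
  exact ⟨S, hS.trans h, rfl⟩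

lemma sum_top_mul {D : ℕ} (hD : D < n) {h : (Fin n → Bool) → ℝ} (hh : h ∈ P n D) :
    ∑ x, chi Finset.univ x * h x = 0 := by
  unfold P at hh
  induction hh using Submodule.span_induction with
  | mem f hf =>
    obtain ⟨S, hS, rfl⟩ := hf
    rw [sum_chi_mul, if_neg]
    intro he
    rw [← he] at hS
    simp at hS
    omega
  | zero => simp
  | add f g _ _ hf hg =>
    simp only [Pi.add_apply, mul_add, Finset.sum_add_distrib, hf, hg, add_zero]
  | smul a f _ hf =>
    simp only [Pi.smul_apply, smul_eq_mul]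
    have : ∀ x, chi Finset.univ x * (a * f x) = a * (chi Finset.univ x * f x) := by
      intro x; ring
    simp only [this, ← Finset.mul_sum, hf, mul_zero]

lemma chi_linInd : LinearIndependent ℝ (fun S : Finset (Fin n) => chi S) := by
  classical
  rw [Fintype.linearIndependent_iff]
  intro g hg S
  have h1 : ∑ x, (∑ T, g T • chi T) x * chi S x = 0 := by rw [hg]; simp
  have h2 : ∀ x, (∑ T, g T • chi T) x * chi S x = ∑ T, g T * (chi T x * chi S x) := by
    intro x
    rw [Finset.sum_apply, Finset.sum_mul]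
    refine Finset.sum_congr rfl fun T _ => ?_
    simp only [Pi.smul_apply, smul_eq_mul]; ring
  simp only [h2] at h1
  rw [Finset.sum_comm] at h1
  simp only [← Finset.mul_sum, sum_chi_mul] at h1
  simp only [mul_ite, mul_zero, Finset.sum_ite_eq', Finset.mem_univ, if_true] at h1
  have h3 : (2:ℝ)^n ≠ 0 := by positivity
  exact (mul_eq_zero.mp h1).resolve_right h3

end Crest.Agent.GL
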