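import Mathlib

set_option autoImplicit false
open Finset

namespace Crest.Agent.GL

section core
set_option linter.unusedSectionVars false

variable {Q : Type*} [Fintype Q] [DecidableEq Q] {N : ℕ}

/-- the symmetric matrix with eigenvalues `z` and eigenvectors `q` -/
def A (q : Fin N → Q → ℝ) (z : Fin N → ℝ) (x y : Q) : ℝ := ∑ k, z k * (q k x * q k y)

/-- multiplication by `h` in the basis `q` -/
def M (q : Fin N → Q → ℝ) (h : Q → ℝ) (k l : Fin N) : ℝ := ∑ x, h x * (q k x * q l x)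

lemma M_symm (q : Fin N → Q → ℝ) (h : Q → ℝ) (k l : Fin N) : M q h k l = M q h l k := by
  unfold M
  exact Finset.sum_congr rfl fun x _ => by ring

/-- `∑_l M_{kl} q_l(y) = h(y) q_k(y)` -/
lemma M_apply (q : Fin N → Q → ℝ)
    (h2 : ∀ x y, ∑ k, q k x * q k y = if x = y then (1 : ℝ) else 0) (h : Q → ℝ) (k : Fin N)
    (y : Q) : ∑ l, M q h k l * q l y = h y * q k y := by
  unfold M
  simp only [Finset.sum_mul]
  rw [Finset.sum_comm]
  have : ∀ x, ∑ l, h x * (q k x * q l x) * q l y = h x * q k x * (if x = y then 1 else 0) := by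
    intro x
    rw [← h2 x y, Finset.mul_sum]
    exact Finset.sum_congr rfl fun l _ => by ring
  simp only [this, mul_ite, mul_one, mul_zero, Finset.sum_ite_eq', Finset.mem_univ, if_true]

/-- `M` is orthogonal -/
lemma M_orth (q : Fin N → Q → ℝ)
    (h1 : ∀ k l, ∑ x, q k x * q l x = if k = l then (1 : ℝ) else 0)
    (h2 : ∀ x y, ∑ k, q k x * q k y = if x = y then (1 : ℝ) else 0) (h : Q → ℝ)
    (hh : ∀ x, h x * h x = 1) (k k' : Fin N) :
    ∑ l, M q h k l * M q h k' l = if k = k' then (1 : ℝ) else 0 := by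
  rw [← h1 k k']
  have : ∀ l, M q h k l * M q h k' l = ∑ y, (h y * q k' y) * (M q h k l * q l y) := by
    intro l
    conv_lhs => rw [M.eq_1 q h k' l]
    rw [Finset.mul_sum]
    exact Finset.sum_congr rfl fun y _ => by ring
  simp only [this]
  rw [Finset.sum_comm]
  refine Finset.sum_congr rfl fun y _ => ?_
  rw [← Finset.mul_sum, M_apply q h2 h k y]
  have := hh y
  calc h y * q k' y * (h y * q k y) = (h y * h y) * (q k y * q k' y) := by ring
    _ = q k y * q k' y := by rw [this, one_mul]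

lemma M_row (q : Fin N → Q → ℝ)
    (h1 : ∀ k l, ∑ x, q k x * q l x = if k = l then (1 : ℝ) else 0)
    (h2 : ∀ x y, ∑ k, q k x * q k y = if x = y then (1 : ℝ) else 0) (h : Q → ℝ)
    (hh : ∀ x, h x * h x = 1) (k : Fin N) :
    ∑ l, (M q h k l) ^ 2 = 1 := by
  have := M_orth q h1 h2 h hh k k
  simp only [if_true] at this
  rw [← this]
  exact Finset.sum_congr rfl fun l _ => by ring

lemma sumA (q : Fin N → Q → ℝ) (z : Fin N → ℝ) (h : Q → ℝ) :
    ∑ x, ∑ y, (A q z x y) ^ 2 * (h x * h y) = ∑ k, ∑ l, z k * z l * (M q h k l) ^ 2 := by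
  have e1 : ∀ x y, (A q z x y) ^ 2 * (h x * h y)
      = ∑ k, ∑ l, z k * z l * ((h x * (q k x * q l x)) * (h y * (q k y * q l y))) := by
    intro x y
    rw [sq, A, Finset.sum_mul_sum, Finset.sum_mul]
    refine Finset.sum_congr rfl fun k _ => ?_
    rw [Finset.sum_mul]
    refine Finset.sum_congr rfl fun l _ => ?_
    ring
  have e2 : ∀ k l, z k * z l * (M q h k l) ^ 2
      = ∑ x, ∑ y, z k * z l * ((h x * (q k x * q l x)) * (h y * (q k y * q l y))) := by
    intro k l
    rw [sq, M, Finset.sum_mul_sum, Finset.mul_sum]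
    refine Finset.sum_congr rfl fun x _ => ?_
    rw [Finset.mul_sum]
  simp only [e1, e2]
  calc ∑ x, ∑ y, ∑ k, ∑ l, z k * z l * ((h x * (q k x * q l x)) * (h y * (q k y * q l y)))
      = ∑ x, ∑ k, ∑ y, ∑ l, z k * z l * ((h x * (q k x * q l x)) * (h y * (q k y * q l y))) := by
        refine Finset.sum_congr rfl fun x _ => ?_
        rw [Finset.sum_comm]
    _ = ∑ k, ∑ x, ∑ y, ∑ l, z k * z l * ((h x * (q k x * q l x)) * (h y * (q k y * q l y))) := by
        rw [Finset.sum_comm]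
    _ = ∑ k, ∑ x, ∑ l, ∑ y, z k * z l * ((h x * (q k x * q l x)) * (h y * (q k y * q l y))) := by
        refine Finset.sum_congr rfl fun k _ => Finset.sum_congr rfl fun x _ => ?_
        rw [Finset.sum_comm]
    _ = _ := by
        refine Finset.sum_congr rfl fun k _ => ?_
        rw [Finset.sum_comm]

lemma sumA_one (q : Fin N → Q → ℝ)
    (h1 : ∀ k l, ∑ x, q k x * q l x = if k = l then (1 : ℝ) else 0) (z : Fin N → ℝ) :
    ∑ x, ∑ y, (A q z x y) ^ 2 = ∑ k, (z k) ^ 2 := by
  have h := sumA q z (fun _ => (1:ℝ))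
  simp only [mul_one] at h
  rw [h]
  refine Finset.sum_congr rfl fun k _ => ?_
  have : ∀ l, M q (fun _ => (1:ℝ)) k l = if k = l then 1 else 0 := by
    intro l
    rw [← h1 k l]
    unfold M
    exact Finset.sum_congr rfl fun x _ => by ring
  simp only [this]
  simp only [ite_pow, one_pow, ne_eq, OfNat.ofNat_ne_zero, not_false_eq_true, zero_pow, mul_ite,
    mul_one, mul_zero, Finset.sum_ite_eq, Finset.mem_univ, if_true]
  ring

lemma sum_plus (q : Fin N → Q → ℝ)
    (h1 : ∀ k l, ∑ x, q k x * q l x = if k = l then (1 : ℝ) else 0)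
    (h2 : ∀ x y, ∑ k, q k x * q k y = if x = y then (1 : ℝ) else 0) (z : Fin N → ℝ) (h : Q → ℝ)
    (hh : ∀ x, h x * h x = 1) (φ : Fin N → ℝ)
    (hφ : ∀ k l, M q h k l ≠ 0 → (z k + z l) ^ 2 / 4 ≤ φ k + φ l) :
    ∑ x, ∑ y, (A q z x y) ^ 2 * ((1 + h x * h y) / 2) ≤ 2 * ∑ k, φ k := by
  have e1 : ∑ x, ∑ y, (A q z x y) ^ 2 * ((1 + h x * h y) / 2)
      = (∑ k, (z k)^2 + ∑ k, ∑ l, z k * z l * (M q h k l) ^ 2) / 2 := by
    rw [← sumA_one q h1 z, ← sumA q z h, ← Finset.sum_add_distrib, Finset.sum_div]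
    refine Finset.sum_congr rfl fun x _ => ?_
    rw [← Finset.sum_add_distrib, Finset.sum_div]
    exact Finset.sum_congr rfl fun y _ => by ring
  have r1 : ∀ ψ : Fin N → ℝ, ∑ k, ∑ l, ψ k * (M q h k l)^2 = ∑ k, ψ k := by
    intro ψ
    refine Finset.sum_congr rfl fun k _ => ?_
    rw [← Finset.mul_sum, M_row q h1 h2 h hh k, mul_one]
  have r2 : ∀ ψ : Fin N → ℝ, ∑ k, ∑ l, ψ l * (M q h k l)^2 = ∑ k, ψ k := by
    intro ψ
    rw [Finset.sum_comm]
    rw [← r1 ψ]
    refine Finset.sum_congr rfl fun k _ => Finset.sum_congr rfl fun l _ => ?_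
    rw [M_symm]
  have e2 : ∑ k, ∑ l, (M q h k l)^2 * ((z k + z l)^2 / 4)
      = (∑ k, (z k)^2 + ∑ k, ∑ l, z k * z l * (M q h k l) ^ 2) / 2 := by
    have a1 := r1 (fun k => (z k)^2)
    have a2 := r2 (fun k => (z k)^2)
    have : ∑ k, ∑ l, (M q h k l)^2 * ((z k + z l)^2 / 4)
        = (∑ k, ∑ l, (z k)^2 * (M q h k l)^2 + ∑ k, ∑ l, (z l)^2 * (M q h k l)^2) / 4
          + (∑ k, ∑ l, z k * z l * (M q h k l) ^ 2) / 2 := by
      rw [← Finset.sum_add_distrib, Finset.sum_div, Finset.sum_div, ← Finset.sum_add_distrib]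
      refine Finset.sum_congr rfl fun k _ => ?_
      rw [← Finset.sum_add_distrib, Finset.sum_div, Finset.sum_div, ← Finset.sum_add_distrib]
      exact Finset.sum_congr rfl fun l _ => by ring
    rw [this, a1, a2]
    ring
  rw [e1, ← e2]
  calc ∑ k, ∑ l, (M q h k l)^2 * ((z k + z l)^2 / 4)
      ≤ ∑ k, ∑ l, (φ k * (M q h k l)^2 + φ l * (M q h k l)^2) := by
        refine Finset.sum_le_sum fun k _ => Finset.sum_le_sum fun l _ => ?_
        by_cases hM : M q h k l = 0
        · simp [hM]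
        · have := hφ k l hM
          have h3 : 0 ≤ (M q h k l)^2 := sq_nonneg _
          nlinarith
    _ = 2 * ∑ k, φ k := by
        simp only [Finset.sum_add_distrib]
        rw [r1 φ, r2 φ]; ring

lemma sum_minus (q : Fin N → Q → ℝ)
    (h1 : ∀ k l, ∑ x, q k x * q l x = if k = l then (1 : ℝ) else 0)
    (h2 : ∀ x y, ∑ k, q k x * q k y = if x = y then (1 : ℝ) else 0) (z : Fin N → ℝ) (h : Q → ℝ)
    (hh : ∀ x, h x * h x = 1)
    (hφ : ∀ k l, M q h k l ≠ 0 → (z k - z l) ^ 2 ≤ 4) :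
    ∑ x, ∑ y, (A q z x y) ^ 2 * ((1 - h x * h y) / 2) ≤ (N : ℝ) := by
  have e1 : ∑ x, ∑ y, (A q z x y) ^ 2 * ((1 - h x * h y) / 2)
      = (∑ k, (z k)^2 - ∑ k, ∑ l, z k * z l * (M q h k l) ^ 2) / 2 := by
    rw [← sumA_one q h1 z, ← sumA q z h, ← Finset.sum_sub_distrib, Finset.sum_div]
    refine Finset.sum_congr rfl fun x _ => ?_
    rw [← Finset.sum_sub_distrib, Finset.sum_div]
    exact Finset.sum_congr rfl fun y _ => by ring
  have r1 : ∀ ψ : Fin N → ℝ, ∑ k, ∑ l, ψ k * (M q h k l)^2 = ∑ k, ψ k := by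
    intro ψ
    refine Finset.sum_congr rfl fun k _ => ?_
    rw [← Finset.mul_sum, M_row q h1 h2 h hh k, mul_one]
  have r2 : ∀ ψ : Fin N → ℝ, ∑ k, ∑ l, ψ l * (M q h k l)^2 = ∑ k, ψ k := by
    intro ψ
    rw [Finset.sum_comm]
    rw [← r1 ψ]
    refine Finset.sum_congr rfl fun k _ => Finset.sum_congr rfl fun l _ => ?_
    rw [M_symm]
  have e2 : ∑ k, ∑ l, (M q h k l)^2 * ((z k - z l)^2 / 4)
      = (∑ k, (z k)^2 - ∑ k, ∑ l, z k * z l * (M q h k l) ^ 2) / 2 := by
    have a1 := r1 (fun k => (z k)^2)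
    have a2 := r2 (fun k => (z k)^2)
    have : ∑ k, ∑ l, (M q h k l)^2 * ((z k - z l)^2 / 4)
        = (∑ k, ∑ l, (z k)^2 * (M q h k l)^2 + ∑ k, ∑ l, (z l)^2 * (M q h k l)^2) / 4
          - (∑ k, ∑ l, z k * z l * (M q h k l) ^ 2) / 2 := by
      rw [← Finset.sum_add_distrib, Finset.sum_div, Finset.sum_div, ← Finset.sum_sub_distrib]
      refine Finset.sum_congr rfl fun k _ => ?_
      rw [← Finset.sum_add_distrib, Finset.sum_div, Finset.sum_div, ← Finset.sum_sub_distrib]
      exact Finset.sum_congr rfl fun l _ => by ring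
    rw [this, a1, a2]
    ring
  rw [e1, ← e2]
  calc ∑ k, ∑ l, (M q h k l)^2 * ((z k - z l)^2 / 4)
      ≤ ∑ k, ∑ l, (M q h k l)^2 := by
        refine Finset.sum_le_sum fun k _ => Finset.sum_le_sum fun l _ => ?_
        by_cases hM : M q h k l = 0
        · simp [hM]
        · have := hφ k l hM
          have h3 : 0 ≤ (M q h k l)^2 := sq_nonneg _
          nlinarith
    _ = (N : ℝ) := by
        have := r1 (fun _ => (1:ℝ))
        simp only [one_mul] at this
        rw [this]; simp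

lemma entry_le (q : Fin N → Q → ℝ)
    (h1 : ∀ k l, ∑ x, q k x * q l x = if k = l then (1 : ℝ) else 0)
    (h2 : ∀ x y, ∑ k, q k x * q k y = if x = y then (1 : ℝ) else 0) (a : ℝ)
    (deg : Fin N → ℕ) (z : Fin N → ℝ) (hz : ∀ k, z k = a - 2 * deg k) (h : Q → ℝ)
    (hh : ∀ x, h x * h x = 1)
    (hband : ∀ k l, M q h k l ≠ 0 → deg k = deg l ∨ deg k = deg l + 1 ∨ deg l = deg k + 1)
    (x y : Q) (hxy : h x = - h y) : (A q z x y) ^ 2 ≤ 1 := by
  classical
  have hne : x ≠ y := by
    intro he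
    rw [he] at hxy
    have h3 := hh y
    have : h y = 0 := by linarith
    rw [this] at h3; norm_num at h3
  let c : Fin N → ℝ := fun k => Real.cos (Real.pi / 2 * deg k)
  let s : Fin N → ℝ := fun k => Real.sin (Real.pi / 2 * deg k)
  have hcs : ∀ k, c k ^ 2 + s k ^ 2 = 1 := fun k => Real.cos_sq_add_sin_sq _
  let α : Fin N → ℝ := fun k => ∑ l, M q h k l * (c l * q l y)
  let β : Fin N → ℝ := fun k => ∑ l, M q h k l * (s l * q l y)
  -- norm of M applied
  have hnorm : ∀ w : Fin N → ℝ, ∑ k, (∑ l, M q h k l * w l)^2 = ∑ l, (w l)^2 := by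
    intro w
    have e1 : ∀ k, (∑ l, M q h k l * w l)^2
        = ∑ l, ∑ l', w l * w l' * (M q h l k * M q h l' k) := by
      intro k
      rw [sq, Finset.sum_mul_sum]
      refine Finset.sum_congr rfl fun l _ => Finset.sum_congr rfl fun l' _ => ?_
      rw [M_symm q h k l, M_symm q h k l']
      ring
    simp only [e1]
    rw [Finset.sum_comm]
    refine Finset.sum_congr rfl fun l _ => ?_
    rw [Finset.sum_comm]
    simp only [← Finset.mul_sum, M_orth q h1 h2 h hh]
    simp only [mul_ite, mul_one, mul_zero, Finset.sum_ite_eq, Finset.mem_univ, if_true]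
    ring
  have hαβ : ∑ k, ((α k)^2 + (β k)^2) = 1 := by
    rw [Finset.sum_add_distrib, hnorm, hnorm, ← Finset.sum_add_distrib]
    have := h2 y y
    simp only [if_true] at this
    rw [← this]
    refine Finset.sum_congr rfl fun l _ => ?_
    have := hcs l
    calc (c l * q l y)^2 + (s l * q l y)^2 = (c l ^2 + s l ^2) * (q l y * q l y) := by ring
      _ = _ := by rw [this, one_mul]
  have hK : ∀ k l, M q h k l * (s k * c l - c k * s l) = M q h k l * ((deg k : ℝ) - deg l) := by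
    intro k l
    by_cases hM : M q h k l = 0
    · simp [hM]
    · congr 1
      have e : s k * c l - c k * s l = Real.sin (Real.pi / 2 * deg k - Real.pi / 2 * deg l) := by
        rw [Real.sin_sub]
      rw [e]
      rcases hband k l hM with hd | hd | hd
      · rw [hd]; simp
      · rw [hd]; push_cast
        have : Real.pi / 2 * ((deg l : ℝ) + 1) - Real.pi / 2 * deg l = Real.pi / 2 := by ring
        rw [this, Real.sin_pi_div_two]; ring
      · rw [hd]; push_cast
        have : Real.pi / 2 * (deg k : ℝ) - Real.pi / 2 * ((deg k : ℝ) + 1) = -(Real.pi / 2) := by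
          ring
        rw [this, Real.sin_neg, Real.sin_pi_div_two]; ring
  -- the quadratic form
  have hform : ∑ k, q k x * (s k * α k - c k * β k) = - h y * A q z x y := by
    have e1 : ∀ k, q k x * (s k * α k - c k * β k)
        = ∑ l, q k x * (M q h k l * ((deg k : ℝ) - deg l)) * q l y := by
      intro k
      simp only [α, β]
      rw [Finset.mul_sum, Finset.mul_sum, ← Finset.sum_sub_distrib, Finset.mul_sum]
      refine Finset.sum_congr rfl fun l _ => ?_
      rw [← hK k l]; ring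
    simp only [e1]
    have e2 : ∀ k l, q k x * (M q h k l * ((deg k : ℝ) - deg l)) * q l y
        = (q k x * deg k) * (M q h k l * q l y) - (q l y * deg l) * (M q h l k * q k x) := by
      intro k l
      rw [M_symm q h l k]; ring
    simp only [e2, Finset.sum_sub_distrib]
    have e3 : ∑ k, ∑ l, (q k x * deg k) * (M q h k l * q l y)
        = ∑ k, (deg k : ℝ) * (q k x * q k y) * h y := by
      refine Finset.sum_congr rfl fun k _ => ?_
      rw [← Finset.mul_sum, M_apply q h2 h k y]; ring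
    have e4 : ∑ k, ∑ l, (q l y * deg l) * (M q h l k * q k x)
        = ∑ k, (deg k : ℝ) * (q k x * q k y) * h x := by
      rw [Finset.sum_comm]
      refine Finset.sum_congr rfl fun k _ => ?_
      rw [← Finset.mul_sum, M_apply q h2 h k x]; ring
    rw [e3, e4, ← Finset.sum_mul, ← Finset.sum_mul]
    have e5 : A q z x y = - 2 * ∑ k, (deg k : ℝ) * (q k x * q k y) := by
      unfold A
      have h3 := h2 x y
      rw [if_neg hne] at h3
      have : ∀ k, z k * (q k x * q k y) = a * (q k x * q k y) - 2 * ((deg k : ℝ) * (q k x * q k y)) := by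
        intro k; rw [hz k]; ring
      simp only [this, Finset.sum_sub_distrib, ← Finset.mul_sum, h3]
      ring
    rw [e5, hxy]; ring
  have hCS : (∑ k, q k x * (s k * α k - c k * β k))^2
      ≤ (∑ k, (q k x)^2) * ∑ k, (s k * α k - c k * β k)^2 :=
    Finset.sum_mul_sq_le_sq_mul_sq _ _ _
  have hq : ∑ k, (q k x)^2 = 1 := by
    have := h2 x x
    simp only [if_true] at this
    rw [← this]
    exact Finset.sum_congr rfl fun k _ => by ring
  have hle : ∑ k, (s k * α k - c k * β k)^2 ≤ ∑ k, ((α k)^2 + (β k)^2) := by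
    refine Finset.sum_le_sum fun k _ => ?_
    have := hcs k
    have e : (α k)^2 + (β k)^2 = (c k ^2 + s k ^ 2) * ((α k)^2 + (β k)^2) := by rw [this, one_mul]
    rw [e]
    nlinarith [sq_nonneg (c k * α k + s k * β k)]
  rw [hform, hq, one_mul] at hCS
  have h5 : (- h y * A q z x y)^2 = (A q z x y)^2 := by
    have := hh y
    calc (- h y * A q z x y)^2 = (h y * h y) * (A q z x y)^2 := by ring
      _ = _ := by rw [this, one_mul]
  rw [h5] at hCS
  linarith [hαβ]

end core

end Crest.Agent.GL
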