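import Mathlib

set_option autoImplicit false
open Finset

namespace Crest.Agent.GL

/-- Gram-Schmidt in coordinates. -/
theorem exists_flag_basis {Q : Type*} [Fintype Q] {N : ℕ} (u : Fin N → (Q → ℝ))
    (hu : LinearIndependent ℝ u) :
    ∃ q : Fin N → (Q → ℝ),
      (∀ k l, ∑ x, q k x * q l x = if k = l then (1 : ℝ) else 0) ∧
      (∀ k, q k ∈ Submodule.span ℝ (u '' Set.Iic k)) ∧
      (∀ k j, j < k → ∑ x, q k x * u j x = 0) := by
  classical
  let L : (Q → ℝ) ≃ₗ[ℝ] EuclideanSpace ℝ Q := (WithLp.linearEquiv 2 ℝ (Q → ℝ)).symm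
  let U : Fin N → EuclideanSpace ℝ Q := fun k => L (u k)
  have hU : LinearIndependent ℝ U := by
    have := hu.map' (L : (Q → ℝ) →ₗ[ℝ] EuclideanSpace ℝ Q) (LinearEquiv.ker L)
    exact this
  have hinner : ∀ a b : EuclideanSpace ℝ Q, inner ℝ a b = ∑ x, L.symm a x * L.symm b x := by
    intro a b
    rw [PiLp.inner_apply]
    refine Finset.sum_congr rfl fun x _ => ?_
    simp [L, mul_comm]
  let G := InnerProductSpace.gramSchmidtNormed ℝ U
  have hG : Orthonormal ℝ G := InnerProductSpace.gramSchmidtNormed_orthonormal hU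
  refine ⟨fun k => L.symm (G k), ?_, ?_, ?_⟩
  · intro k l
    rw [← hinner]
    exact (orthonormal_iff_ite.mp hG) k l
  · intro k
    have h1 : G k ∈ Submodule.span ℝ (U '' Set.Iic k) := by
      have h2 := InnerProductSpace.gramSchmidt_mem_span ℝ U (le_refl k)
      exact Submodule.smul_mem _ _ h2
    have h3 : L.symm (G k) ∈ (Submodule.span ℝ (U '' Set.Iic k)).map
        (L.symm : EuclideanSpace ℝ Q →ₗ[ℝ] (Q → ℝ)) := Submodule.mem_map_of_mem h1
    rw [Submodule.map_span, ← Set.image_comp] at h3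
    have h4 : (⇑(L.symm : EuclideanSpace ℝ Q →ₗ[ℝ] (Q → ℝ)) ∘ U) = u := by
      funext j
      simp [U]
    rw [h4] at h3
    exact h3
  · intro k j hjk
    have h1 : inner ℝ (G k) (U j) = 0 := by
      have h2 := InnerProductSpace.gramSchmidt_inv_triangular ℝ U hjk
      simp only [G, InnerProductSpace.gramSchmidtNormed, inner_smul_left, h2, mul_zero]
    rw [hinner] at h1
    simpa [U] using h1

/-- rows of a square matrix with orthonormal columns are orthonormal -/
theorem rows_orth {Q : Type*} [Fintype Q] [DecidableEq Q] {N : ℕ} (hN : Fintype.card Q = N)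
    (q : Fin N → (Q → ℝ)) (hq : ∀ k l, ∑ x, q k x * q l x = if k = l then (1 : ℝ) else 0) :
    ∀ x y, ∑ k, q k x * q k y = if x = y then (1 : ℝ) else 0 := by
  classical
  let O : Matrix (Fin N) Q ℝ := fun k x => q k x
  have h1 : O * O.transpose = 1 := by
    ext k l
    simp only [Matrix.mul_apply, Matrix.transpose_apply, Matrix.one_apply]
    exact hq k l
  have h2 : O.transpose * O = 1 := by
    have hc : Fintype.card (Fin N) = Fintype.card Q := by simp [hN]
    exact (Matrix.mul_eq_one_comm_of_card_eq (Fin N) Q ℝ hc).mp h1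
  intro x y
  have h3 := congrFun (congrFun h2 x) y
  simp only [Matrix.mul_apply, Matrix.transpose_apply, Matrix.one_apply] at h3
  exact h3

end Crest.Agent.GL
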