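import Crest.Agent.GL.Flag
import Crest.Agent.GL.Chi
import Crest.Agent.GL.Core

set_option autoImplicit false
open Finset

namespace Crest.Agent.GL

variable {n : ℕ}

/-- an enumeration of the subsets by nondecreasing cardinality -/
theorem exists_enum (n : ℕ) : ∃ e : Fin (2 ^ n) ≃ Finset (Fin n),
    Monotone fun k => (e k).card := by
  have hc : Fintype.card (Finset (Fin n)) = 2 ^ n := by simp
  let e0 : Fin (2 ^ n) ≃ Finset (Fin n) := (Fintype.equivFinOfCardEq hc).symm
  let f : Fin (2 ^ n) → ℕ := fun k => (e0 k).card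
  refine ⟨(Tuple.sort f).trans e0, ?_⟩
  have := Tuple.monotone_sort f
  exact this

/-- the flip of coordinate `i` -/
def flip (i : Fin n) (x : Fin n → Bool) : Fin n → Bool := Function.update x i (!(x i))

lemma flip_same (i : Fin n) (x : Fin n → Bool) : flip i x i = !(x i) := by simp [flip]

lemma flip_ne {i j : Fin n} (h : j ≠ i) (x : Fin n → Bool) : flip i x j = x j := by
  simp [flip, h]

lemma sg_not (b : Bool) : sg (!b) = - sg b := by cases b <;> simp [sg]

lemma chi_flip (i : Fin n) (x : Fin n → Bool) : chi Finset.univ (flip i x) = - chi Finset.univ x := by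
  unfold chi
  rw [← Finset.mul_prod_erase _ _ (Finset.mem_univ i), ← Finset.mul_prod_erase univ (fun j => sg (x j)) (Finset.mem_univ i),
    flip_same, sg_not, neg_mul]
  congr 2
  refine Finset.prod_congr rfl fun j hj => ?_
  rw [flip_ne (Finset.ne_of_mem_erase hj)]

lemma flip_injective (x : Fin n → Bool) : Function.Injective fun i => flip i x := by
  intro i j hij
  by_contra hne
  have h1 : flip i x i = flip j x i := congrFun hij i
  rw [flip_same, flip_ne hne] at h1
  cases hx : x i <;> simp [hx] at h1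

lemma flip_ne_self (i : Fin n) (x : Fin n → Bool) : flip i x ≠ x := by
  intro h
  have h1 := congrFun h i
  rw [flip_same] at h1
  cases hx : x i <;> simp [hx] at h1

/-- sums over the enumeration are sums over the cube -/
lemma sum_enum (e : Fin (2 ^ n) ≃ Finset (Fin n)) (ψ : ℝ → ℝ) :
    ∑ k, ψ ((n : ℝ) - 2 * ((e k).card : ℝ)) = ∑ x : Fin n → Bool, ψ (∑ i, sg (x i)) := by
  classical
  rw [Equiv.sum_comp e (fun S => ψ ((n : ℝ) - 2 * ((S.card : ℕ) : ℝ)))]
  let E : Finset (Fin n) ≃ (Fin n → Bool) :=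
    { toFun := fun S i => decide (i ∉ S)
      invFun := fun x => Finset.univ.filter fun i => x i = false
      left_inv := by intro S; ext i; simp
      right_inv := by intro x; funext i; simp }
  refine Fintype.sum_equiv E _ _ fun S => ?_
  congr 1
  have : ∀ i, sg (E S i) = 1 - 2 * (if i ∈ S then (1:ℝ) else 0) := by
    intro i
    by_cases hi : i ∈ S <;> simp [E, sg, hi]; norm_num
  simp only [this, Finset.sum_sub_distrib, ← Finset.mul_sum]
  simp

lemma sum_neg (ψ : ℝ → ℝ) :
    ∑ x : Fin n → Bool, ψ (∑ i, sg (x i)) = ∑ x : Fin n → Bool, ψ (-(∑ i, sg (x i))) := by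
  let E : (Fin n → Bool) ≃ (Fin n → Bool) :=
    { toFun := fun x i => !(x i)
      invFun := fun x i => !(x i)
      left_inv := by intro x; funext i; simp
      right_inv := by intro x; funext i; simp }
  refine Fintype.sum_equiv E _ _ fun x => ?_
  congr 1
  have : ∀ i, sg (E x i) = - sg (x i) := fun i => sg_not (x i)
  simp [this]

lemma sum_sq : ∑ x : Fin n → Bool, (∑ i, sg (x i)) ^ 2 = (n : ℝ) * 2 ^ n := by
  have e1 : ∀ x : Fin n → Bool, (∑ i, sg (x i)) ^ 2 = ∑ i, ∑ j, chi {i} x * chi {j} x := by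
    intro x
    rw [sq, Finset.sum_mul_sum]
    simp [chi]
  simp only [e1]
  rw [Finset.sum_comm]
  have e2 : ∀ i : Fin n, ∑ x : Fin n → Bool, ∑ j, chi {i} x * chi {j} x = (2:ℝ) ^ n := by
    intro i
    rw [Finset.sum_comm]
    simp only [sum_chi_mul]
    have : ∀ j : Fin n, (if ({i} : Finset (Fin n)) = {j} then (2:ℝ)^n else 0)
        = if i = j then (2:ℝ)^n else 0 := by
      intro j; simp
    simp [this]
  simp [e2]

lemma sum_abs_le : ∑ x : Fin n → Bool, |∑ i, sg (x i)| ≤ Real.sqrt n * 2 ^ n := by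
  have h1 : (∑ x : Fin n → Bool, |∑ i, sg (x i)|) ^ 2 ≤ (2:ℝ) ^ n * ((n : ℝ) * 2 ^ n) := by
    have h2 := sq_sum_le_card_mul_sum_sq (s := (Finset.univ : Finset (Fin n → Bool)))
      (f := fun x => |∑ i, sg (x i)|)
    simp only [sq_abs, sum_sq] at h2
    simpa using h2
  have h3 : 0 ≤ Real.sqrt n * 2 ^ n := by positivity
  refine abs_le_of_sq_le_sq' ?_ h3 |>.2
  refine h1.trans (le_of_eq ?_)
  rw [mul_pow, Real.sq_sqrt (Nat.cast_nonneg n)]
  ring

/-- the dual potential -/
noncomputable def pot (d z : ℝ) : ℝ := -(z * |z|) / 2 + d * (|z| + z)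

lemma pot_ineq {d z w : ℝ} (h : z + w ≤ 2 * d) :
    (z + w) ^ 2 / 4 ≤ pot d z + pot d w := by
  unfold pot
  rcases le_total 0 z with hz | hz <;> rcases le_total 0 w with hw | hw
  · rw [abs_of_nonneg hz, abs_of_nonneg hw]
    nlinarith [mul_nonneg hz hw, mul_nonneg (add_nonneg hz hw) (sub_nonneg.mpr h)]
  · rw [abs_of_nonneg hz, abs_of_nonpos hw]
    nlinarith [mul_nonneg hz (sub_nonneg.mpr h), sq_nonneg (z + w)]
  · rw [abs_of_nonpos hz, abs_of_nonneg hw]
    nlinarith [mul_nonneg hw (sub_nonneg.mpr h), sq_nonneg (z + w)]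
  · rw [abs_of_nonpos hz, abs_of_nonpos hw]
    nlinarith [sq_nonneg (z - w)]

lemma sum_pot (e : Fin (2 ^ n) ≃ Finset (Fin n)) {d : ℝ} (hd : 0 ≤ d) :
    ∑ k, pot d ((n : ℝ) - 2 * ((e k).card : ℝ)) ≤ d * (Real.sqrt n * 2 ^ n) := by
  rw [sum_enum e (pot d)]
  have h1 := sum_neg (n := n) (pot d)
  have h2 : ∑ x : Fin n → Bool, pot d (∑ i, sg (x i))
      = d * ∑ x : Fin n → Bool, |∑ i, sg (x i)| := by
    have h3 : ∑ x : Fin n → Bool, pot d (∑ i, sg (x i))
        + ∑ x : Fin n → Bool, pot d (-(∑ i, sg (x i)))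
        = 2 * (d * ∑ x : Fin n → Bool, |∑ i, sg (x i)|) := by
      rw [← Finset.sum_add_distrib, Finset.mul_sum, Finset.mul_sum]
      refine Finset.sum_congr rfl fun x _ => ?_
      unfold pot
      rw [abs_neg]; ring
    linarith
  rw [h2]
  exact mul_le_mul_of_nonneg_left sum_abs_le hd

/-- Main estimate for a nowhere vanishing function of degree at most `d`. -/
theorem main_bound {d : ℕ} (p : (Fin n → Bool) → ℝ) (hp : p ∈ P n d) (f : (Fin n → Bool) → Bool)
    (hf : ∀ x, 0 < sg (f x) * p x) :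
    (∑ i : Fin n, ((Finset.univ.filter
        (fun x : Fin n → Bool => f x ≠ f (flip i x))).card : ℝ))
      ≤ 4 * ((d : ℝ) * (Real.sqrt n * 2 ^ n)) := by
  classical
  -- the weight
  obtain ⟨v, hv⟩ : ∃ v : (Fin n → Bool) → ℝ, ∀ x, 0 < v x ∧ sg (f x) * (v x * v x) = p x := by
    refine ⟨fun x => Real.sqrt (sg (f x) * p x), fun x => ⟨Real.sqrt_pos.mpr (hf x), ?_⟩⟩
    rw [Real.mul_self_sqrt (hf x).le, ← mul_assoc, sg_mul_self, one_mul]
  obtain ⟨e, he⟩ := exists_enum n
  let deg : Fin (2 ^ n) → ℕ := fun k => (e k).card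
  have hdeg : Monotone deg := he
  let mv : ((Fin n → Bool) → ℝ) →ₗ[ℝ] ((Fin n → Bool) → ℝ) := LinearMap.mulLeft ℝ v
  let u : Fin (2 ^ n) → ((Fin n → Bool) → ℝ) := fun k => v * chi (e k)
  have hu : LinearIndependent ℝ u := by
    have h1 : LinearIndependent ℝ (fun k => chi (e k)) := chi_linInd.comp e e.injective
    have h2 : LinearMap.ker mv = ⊥ := by
      rw [LinearMap.ker_eq_bot']
      intro m hm
      funext x
      have h3 := congrFun hm x
      simp only [mv, LinearMap.mulLeft_apply, Pi.mul_apply, Pi.zero_apply] at h3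
      exact (mul_eq_zero.mp h3).resolve_left (hv x).1.ne'
    exact h1.map' mv h2
  obtain ⟨q, hq1, hq3, hq4⟩ := exists_flag_basis u hu
  have hq2 := rows_orth (by simp) q hq1
  -- each q k is v times a function of degree at most deg k
  have hqr : ∀ k, ∃ r ∈ P n (deg k), q k = v * r := by
    intro k
    have h1 : Submodule.span ℝ (u '' Set.Iic k) ≤ (P n (deg k)).map mv := by
      rw [Submodule.span_le]
      rintro _ ⟨j, hj, rfl⟩
      exact ⟨chi (e j), chi_mem_P (hdeg hj), rfl⟩
    obtain ⟨r, hr, hr2⟩ := h1 (hq3 k)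
    exact ⟨r, hr, hr2.symm⟩
  have hlow : ∀ k D, D < deg k → ∀ r ∈ P n D, ∑ x, q k x * (v x * r x) = 0 := by
    intro k D hD r hr
    unfold P at hr
    induction hr using Submodule.span_induction with
    | mem g hg =>
      obtain ⟨S, hS, rfl⟩ := hg
      have h1 : e.symm S < k := by
        by_contra hcon
        have h2 := hdeg (not_lt.mp hcon)
        simp only [deg, Equiv.apply_symm_apply] at h2
        simp only [deg] at hD
        omega
      have h3 := hq4 k (e.symm S) h1
      simpa [u] using h3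
    | zero => simp
    | add g h _ _ hg hh =>
      simp only [Pi.add_apply, mul_add, Finset.sum_add_distrib, hg, hh, add_zero]
    | smul a g _ hg =>
      simp only [Pi.smul_apply, smul_eq_mul]
      have : ∀ x, q k x * (v x * (a * g x)) = a * (q k x * (v x * g x)) := by intro x; ring
      simp only [this, ← Finset.mul_sum, hg, mul_zero]
  let z : Fin (2 ^ n) → ℝ := fun k => (n : ℝ) - 2 * (deg k : ℝ)
  -- coordinate signs
  let s : Fin n → (Fin n → Bool) → ℝ := fun i x => sg (x i)
  have hs2 : ∀ i x, s i x * s i x = 1 := fun i x => sg_mul_self _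
  have hsP : ∀ i, s i ∈ P n 1 := by
    intro i
    have : s i = chi {i} := by funext x; simp [s, chi]
    rw [this]; exact chi_mem_P (by simp)
  have hband0 : ∀ i k l, deg l + 1 < deg k → M q (s i) k l = 0 := by
    intro i k l hkl
    obtain ⟨r, hr, hqr'⟩ := hqr l
    have h1 : s i * r ∈ P n (1 + deg l) := P_mul (hsP i) hr
    have h2 := hlow k (1 + deg l) (by omega) _ h1
    rw [← h2]
    unfold M
    refine Finset.sum_congr rfl fun x _ => ?_
    rw [hqr']
    simp only [Pi.mul_apply]; ring
  have hband : ∀ i k l, M q (s i) k l ≠ 0 →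
      deg k = deg l ∨ deg k = deg l + 1 ∨ deg l = deg k + 1 := by
    intro i k l hM
    have h1 : ¬ deg l + 1 < deg k := fun h => hM (hband0 i k l h)
    have h2 : ¬ deg k + 1 < deg l := fun h => hM (by rw [M_symm]; exact hband0 i l k h)
    omega
  -- the sign function g
  let g : (Fin n → Bool) → ℝ := fun x => sg (f x) * chi Finset.univ x
  have hg2 : ∀ x, g x * g x = 1 := by
    intro x
    have h1 := sg_mul_self (f x)
    have h2 := chi_mul_self Finset.univ x
    calc g x * g x = (sg (f x) * sg (f x)) * (chi Finset.univ x * chi Finset.univ x) := by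
          simp only [g]; ring
      _ = 1 := by rw [h1, h2, one_mul]
  have hgsupp : ∀ k l, M q g k l ≠ 0 → n ≤ d + deg k + deg l := by
    intro k l hM
    by_contra hcon
    apply hM
    obtain ⟨r, hr, hr'⟩ := hqr k
    obtain ⟨r2, hr2, hr2'⟩ := hqr l
    have h1 : p * r * r2 ∈ P n (d + deg k + deg l) := P_mul (P_mul hp hr) hr2
    have h2 := sum_top_mul (by omega) h1
    rw [← h2]
    unfold M
    refine Finset.sum_congr rfl fun x _ => ?_
    rw [hr', hr2']
    simp only [Pi.mul_apply, g]
    rw [← (hv x).2]; ring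
  -- X bound
  have hX : ∑ x, ∑ y, (A q z x y) ^ 2 * ((1 + g x * g y) / 2)
      ≤ 2 * ((d : ℝ) * (Real.sqrt n * 2 ^ n)) := by
    have h1 := sum_plus q hq1 hq2 z g hg2 (fun k => pot d (z k)) (by
      intro k l hM
      have h2 := hgsupp k l hM
      apply pot_ineq
      have h3 : (n : ℝ) ≤ d + deg k + deg l := by exact_mod_cast h2
      simp only [z]
      linarith)
    refine h1.trans ?_
    have h2 := sum_pot e (d := (d : ℝ)) (Nat.cast_nonneg d)
    have h3 : ∑ k, pot d (z k) = ∑ k, pot d ((n : ℝ) - 2 * ((e k).card : ℝ)) := rfl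
    rw [h3]
    linarith
  -- total
  have hT : ∑ x, ∑ y, (A q z x y) ^ 2 = (n : ℝ) * 2 ^ n := by
    rw [sumA_one q hq1 z]
    have h1 := sum_enum e (fun t => t ^ 2)
    rw [sum_sq] at h1
    exact h1
  have hI : ∀ i, ∑ x, ∑ y, (A q z x y) ^ 2 * ((1 - s i x * s i y) / 2) ≤ (2 : ℝ) ^ n := by
    intro i
    have h1 := sum_minus q hq1 hq2 z (s i) (hs2 i) (by
      intro k l hM
      rcases hband i k l hM with h | h | h
      · simp only [z]; rw [h]; norm_num
      · simp only [z]; rw [h]; push_cast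
        have : ((n : ℝ) - 2 * ((deg l : ℝ) + 1) - (n - 2 * (deg l : ℝ))) = -2 := by ring
        rw [this]; norm_num
      · simp only [z]; rw [h]; push_cast
        have : ((n : ℝ) - 2 * (deg k : ℝ) - (n - 2 * ((deg k : ℝ) + 1))) = 2 := by ring
        rw [this]; norm_num)
    refine h1.trans (le_of_eq ?_)
    push_cast; rfl
  have hent : ∀ i x, (A q z x (flip i x)) ^ 2 ≤ 1 := by
    intro i x
    refine entry_le q hq1 hq2 n deg z (fun k => rfl) (s i) (hs2 i) (hband i) x (flip i x) ?_
    simp only [s]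
    rw [flip_same, sg_not, neg_neg]
  -- notation
  set a : (Fin n → Bool) → (Fin n → Bool) → ℝ := fun x y => (A q z x y) ^ 2 with ha
  have ha0 : ∀ x y, 0 ≤ a x y := fun x y => sq_nonneg _
  -- the neighbourhood of x
  let T : (Fin n → Bool) → Finset (Fin n) → Finset (Fin n → Bool) := fun x J =>
    insert x (J.image fun i => flip i x)
  have hTsum : ∀ x (J : Finset (Fin n)) (w : (Fin n → Bool) → ℝ),
      ∑ y ∈ T x J, w y = w x + ∑ i ∈ J, w (flip i x) := by
    intro x J w
    simp only [T]
    rw [Finset.sum_insert, Finset.sum_image]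
    · intro i _ j _ hij
      exact flip_injective x hij
    · intro hx
      obtain ⟨i, _, hi⟩ := Finset.mem_image.mp hx
      exact flip_ne_self i x hi
  -- distances
  have hdterm : ∀ i x y, 0 ≤ (1 - s i x * s i y) / 2 := by
    intro i x y
    simp only [s]
    cases x i <;> cases y i <;> simp [sg]
  have hdterm1 : ∀ i x y, x i ≠ y i → (1 - s i x * s i y) / 2 = 1 := by
    intro i x y hxy
    simp only [s]
    cases hx : x i <;> cases hy : y i <;> simp [hx, hy] at hxy <;> norm_num [sg]
  have hdterm0 : ∀ i x y, x i = y i → (1 - s i x * s i y) / 2 = 0 := by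
    intro i x y hxy
    simp only [s]
    rw [hxy, sg_mul_self]; norm_num
  have hdist_self : ∀ x, ∑ i, (1 - s i x * s i x) / 2 = 0 :=
    fun x => Finset.sum_eq_zero fun i _ => hdterm0 i x x rfl
  have hdist_flip : ∀ j x, ∑ i, (1 - s i x * s i (flip j x)) / 2 = 1 := by
    intro j x
    rw [Finset.sum_eq_single j]
    · refine hdterm1 j x (flip j x) ?_
      rw [flip_same]
      cases x j <;> simp
    · intro i _ hij
      refine hdterm0 i x (flip j x) ?_
      rw [flip_ne hij]
    · intro h; exact absurd (Finset.mem_univ j) h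
  have hdist_far : ∀ x y, y ∉ T x Finset.univ → 2 ≤ ∑ i, (1 - s i x * s i y) / 2 := by
    intro x y hy
    have hyx : y ≠ x := fun h => hy (by simp only [T]; rw [h]; exact Finset.mem_insert_self _ _)
    obtain ⟨i, hi⟩ := Function.ne_iff.mp hyx
    have hyi : y ≠ flip i x := fun h => hy (by
      simp only [T]
      exact Finset.mem_insert_of_mem (Finset.mem_image.mpr ⟨i, Finset.mem_univ i, h.symm⟩))
    obtain ⟨j, hj⟩ := Function.ne_iff.mp hyi
    have hji : j ≠ i := by
      rintro rfl
      rw [flip_same] at hj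
      cases hx : x j <;> cases hy' : y j <;> simp [hx, hy'] at hi hj
    rw [flip_ne hji] at hj
    have h1 : ∑ l ∈ ({i, j} : Finset (Fin n)), (1 - s l x * s l y) / 2
        ≤ ∑ l, (1 - s l x * s l y) / 2 :=
      Finset.sum_le_sum_of_subset_of_nonneg (Finset.subset_univ _) fun l _ _ => hdterm l x y
    rw [Finset.sum_pair hji.symm, hdterm1 i x y (Ne.symm hi), hdterm1 j x y (Ne.symm hj)] at h1
    linarith
  -- inequality I
  have hineqI : (n : ℝ) * 2 ^ n ≤ ∑ x, (2 * a x x + ∑ i, a x (flip i x)) := by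
    have h1 : ∀ x, ∑ y, a x y * (2 - ∑ i, (1 - s i x * s i y) / 2)
        ≤ 2 * a x x + ∑ i, a x (flip i x) := by
      intro x
      have h2 : ∑ y, a x y * (2 - ∑ i, (1 - s i x * s i y) / 2)
          ≤ ∑ y ∈ T x Finset.univ, a x y * (2 - ∑ i, (1 - s i x * s i y) / 2) := by
        rw [← Finset.sum_sdiff (Finset.subset_univ (T x Finset.univ))]
        have h3 : ∑ y ∈ Finset.univ \ T x Finset.univ,
            a x y * (2 - ∑ i, (1 - s i x * s i y) / 2) ≤ 0 := by
          refine Finset.sum_nonpos fun y hy => ?_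
          have h4 := hdist_far x y (Finset.mem_sdiff.mp hy).2
          exact mul_nonpos_of_nonneg_of_nonpos (ha0 x y) (by linarith)
        linarith
      refine h2.trans (le_of_eq ?_)
      rw [hTsum, hdist_self]
      have h5 : ∀ i, a x (flip i x) * (2 - ∑ j, (1 - s j x * s j (flip i x)) / 2)
          = a x (flip i x) := by
        intro i; rw [hdist_flip]; ring
      simp only [h5]
      ring
    have h6 : ∑ x, ∑ y, a x y * (2 - ∑ i, (1 - s i x * s i y) / 2)
        = 2 * ((n : ℝ) * 2 ^ n) - ∑ i, ∑ x, ∑ y, a x y * ((1 - s i x * s i y) / 2) := by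
      rw [← hT, Finset.mul_sum]
      have h7 : ∑ i, ∑ x, ∑ y, a x y * ((1 - s i x * s i y) / 2)
          = ∑ x, ∑ y, ∑ i, a x y * ((1 - s i x * s i y) / 2) := by
        rw [Finset.sum_comm]
        refine Finset.sum_congr rfl fun x _ => ?_
        rw [Finset.sum_comm]
      rw [h7, ← Finset.sum_sub_distrib]
      refine Finset.sum_congr rfl fun x _ => ?_
      rw [Finset.mul_sum, ← Finset.sum_sub_distrib]
      refine Finset.sum_congr rfl fun y _ => ?_
      rw [← Finset.mul_sum]
      ring
    have h8 : ∑ i, ∑ x, ∑ y, a x y * ((1 - s i x * s i y) / 2) ≤ (n : ℝ) * 2 ^ n := by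
      calc ∑ i, ∑ x, ∑ y, a x y * ((1 - s i x * s i y) / 2)
          ≤ ∑ _i : Fin n, (2:ℝ) ^ n := Finset.sum_le_sum fun i _ => hI i
        _ = (n : ℝ) * 2 ^ n := by simp
    have h9 := Finset.sum_le_sum fun x (_ : x ∈ (Finset.univ : Finset (Fin n → Bool))) => h1 x
    linarith [h6, h8, h9]
  -- inequality II
  let sens : (Fin n → Bool) → Finset (Fin n) := fun x =>
    Finset.univ.filter fun i => f x ≠ f (flip i x)
  have hineqII : ∑ x, (a x x + ∑ i ∈ sens x, a x (flip i x))
      ≤ 2 * ((d : ℝ) * (Real.sqrt n * 2 ^ n)) := by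
    refine le_trans ?_ hX
    refine Finset.sum_le_sum fun x _ => ?_
    have hnn : ∀ y, 0 ≤ a x y * ((1 + g x * g y) / 2) := by
      intro y
      refine mul_nonneg (ha0 x y) ?_
      have h1 := hg2 x
      have h2 := hg2 y
      nlinarith [sq_nonneg (g x + g y)]
    have h1 : ∑ y ∈ T x (sens x), a x y * ((1 + g x * g y) / 2)
        ≤ ∑ y, a x y * ((1 + g x * g y) / 2) :=
      Finset.sum_le_sum_of_subset_of_nonneg (Finset.subset_univ _) fun y _ _ => hnn y
    refine le_trans (le_of_eq ?_) h1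
    rw [hTsum, hg2]
    congr 1
    · ring
    · refine Finset.sum_congr rfl fun i hi => ?_
      have hfi : f x ≠ f (flip i x) := (Finset.mem_filter.mp hi).2
      have h2 : g x * g (flip i x) = 1 := by
        simp only [g]
        rw [chi_flip]
        have h3 : sg (f (flip i x)) = - sg (f x) := by
          cases hx : f x <;> cases hy : f (flip i x) <;> simp [hx, hy] at hfi <;> simp [sg]
        rw [h3]
        have h4 := sg_mul_self (f x)
        have h5 := chi_mul_self Finset.univ x
        calc sg (f x) * chi univ x * (-sg (f x) * -chi univ x)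
            = (sg (f x) * sg (f x)) * (chi univ x * chi univ x) := by ring
          _ = 1 := by rw [h4, h5, one_mul]
      rw [h2]; ring
  -- count
  have hcount : (∑ i : Fin n, ((Finset.univ.filter
        (fun x : Fin n → Bool => f x ≠ f (flip i x))).card : ℝ))
      = ∑ x, ∑ i, (if f x ≠ f (flip i x) then (1:ℝ) else 0) := by
    rw [Finset.sum_comm]
    refine Finset.sum_congr rfl fun i _ => ?_
    rw [Finset.card_filter]
    push_cast
    rfl
  rw [hcount]
  have hle : ∀ x, ∑ i, (if f x ≠ f (flip i x) then (1:ℝ) else 0)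
      ≤ (n : ℝ) - ∑ i, a x (flip i x) + ∑ i ∈ sens x, a x (flip i x) := by
    intro x
    have h1 : ∑ i ∈ sens x, a x (flip i x)
        = ∑ i, (if f x ≠ f (flip i x) then a x (flip i x) else 0) := by
      simp only [sens]
      rw [Finset.sum_filter]
    have h2 : (n : ℝ) = ∑ _i : Fin n, (1 : ℝ) := by simp
    rw [h1, h2, ← Finset.sum_sub_distrib, ← Finset.sum_add_distrib]
    refine Finset.sum_le_sum fun i _ => ?_
    have h3 := hent i x
    split_ifs
    · have : a x (flip i x) = (A q z x (flip i x)) ^ 2 := rfl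
      linarith
    · have : a x (flip i x) = (A q z x (flip i x)) ^ 2 := rfl
      linarith
  have hsum := Finset.sum_le_sum fun x (_ : x ∈ (Finset.univ : Finset (Fin n → Bool))) => hle x
  have hn2 : ∑ _x : Fin n → Bool, (n : ℝ) = (n : ℝ) * 2 ^ n := by
    simp; ring
  simp only [Finset.sum_add_distrib, Finset.sum_sub_distrib, ← Finset.mul_sum] at hsum hineqI hineqII
  rw [hn2] at hsum
  have hsensnn : 0 ≤ ∑ x, ∑ i ∈ sens x, a x (flip i x) :=
    Finset.sum_nonneg fun x _ => Finset.sum_nonneg fun i _ => ha0 _ _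
  linarith [hsum, hineqI, hineqII, hsensnn]

end Crest.Agent.GL
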